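import Vale.Agent.P038.H588.Main

/-!
# P038 (H588): the shift inequality at an optimal pair, and the key theorem
-/

namespace Vale.Agent.P038.H588

open Finset

variable {V : Type*} [Fintype V] [DecidableEq V]

/-- Feasible (outer) pairs of families. -/
def Feas (N : V → Finset V) (p : (V → Finset V) × (V → Finset V)) : Prop :=
  (∀ a, N a ⊆ p.1 a) ∧ (∀ b, N b ⊆ p.2 b) ∧ ∀ a b, b ∈ p.1 a → a ∈ p.2 b → a = b

/-- Cost of a pair. -/
def cost (N : V → Finset V) (p : (V → Finset V) × (V → Finset V)) : ℤ :=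
  ∑ a, cc N (p.1 a) + ∑ b, cc N (p.2 b)

theorem exists_opt (N : V → Finset V) (hanti : ∀ a b, b ∈ N a → a ∈ N b → a = b) :
    ∃ p, Feas N p ∧ ∀ q, Feas N q → cost N p ≤ cost N q := by
  obtain ⟨p, hp, hmin⟩ := Set.exists_min_image {p | Feas N p} (cost N) (Set.toFinite _)
    ⟨(N, N), fun a => Finset.Subset.refl _, fun a => Finset.Subset.refl _, hanti⟩
  exact ⟨p, hp, fun q hq => hmin q hq⟩

omit [Fintype V] in
theorem sub_cl {N : V → Finset V} (hN : ∀ a, a ∈ N a) (S : Finset V) : S ⊆ cl N S :=
  fun x hx => mem_cl.2 ⟨x, hx, hN x⟩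

theorem sum_update (f : V → ℤ) (g : V → ℤ) (a : V) (h : ∀ b, b ≠ a → f b = g b) :
    ∑ b, f b - ∑ b, g b = f a - g a := by
  rw [← Finset.sum_sub_distrib, Finset.sum_eq_single a]
  · intro b _ hb
    rw [h b hb, sub_self]
  · intro h
    exact absurd (Finset.mem_univ _) h

/-- Row optimality. -/
theorem opt_row {N : V → Finset V} {p : (V → Finset V) × (V → Finset V)} (hp : Feas N p)
    (hmin : ∀ q, Feas N q → cost N p ≤ cost N q) (a : V) (R : Finset V) (h1 : p.1 a ⊆ R)
    (h2 : ∀ b ∈ R, a ∈ p.2 b → a = b) : cc N (p.1 a) ≤ cc N R := by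
  have h := hmin (Function.update p.1 a R, p.2) ⟨fun b => ?_, hp.2.1, fun b x hx hb => ?_⟩
  · have h3 := sum_update (fun b => cc N (Function.update p.1 a R b)) (fun b => cc N (p.1 b)) a
      (fun b hb => by simp [hb])
    simp only [Function.update_self] at h3
    unfold cost at h
    simp only at h
    linarith
  · by_cases hb : b = a
    · subst hb
      simp only [Function.update_self]
      exact (hp.1 b).trans h1
    · simp only [Function.update_of_ne hb]
      exact hp.1 b
  · by_cases hba : b = a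
    · subst hba
      simp only [Function.update_self] at hx
      exact h2 x hx hb
    · simp only [Function.update_of_ne hba] at hx
      exact hp.2.2 b x hx hb

/-- Column optimality. -/
theorem opt_col {N : V → Finset V} {p : (V → Finset V) × (V → Finset V)} (hp : Feas N p)
    (hmin : ∀ q, Feas N q → cost N p ≤ cost N q) (b : V) (R : Finset V) (h1 : p.2 b ⊆ R)
    (h2 : ∀ a ∈ R, b ∈ p.1 a → a = b) : cc N (p.2 b) ≤ cc N R := by
  have h := hmin (p.1, Function.update p.2 b R) ⟨hp.1, fun x => ?_, fun x y hy hx => ?_⟩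
  · have h3 := sum_update (fun x => cc N (Function.update p.2 b R x)) (fun x => cc N (p.2 x)) b
      (fun x hx => by simp [hx])
    simp only [Function.update_self] at h3
    unfold cost at h
    simp only at h
    linarith
  · by_cases hb : x = b
    · subst hb
      simp only [Function.update_self]
      exact (hp.2.1 x).trans h1
    · simp only [Function.update_of_ne hb]
      exact hp.2.1 x
  · by_cases hyb : y = b
    · subst hyb
      simp only [Function.update_self] at hx
      exact h2 x hx hy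
    · simp only [Function.update_of_ne hyb] at hx
      exact hp.2.2 x y hy hx

/-- The upper family attached to `C`. -/
def UU (C : V → Finset V) (a : V) : Finset V := univ.filter fun b => b = a ∨ a ∉ C b

theorem mem_UU {C : V → Finset V} {a b : V} : b ∈ UU C a ↔ b = a ∨ a ∉ C b := by
  simp [UU]

theorem sub_UU {N : V → Finset V} {p : (V → Finset V) × (V → Finset V)} (hp : Feas N p) (a : V) :
    p.1 a ⊆ UU p.2 a := by
  intro b hb
  rw [mem_UU]
  by_cases h : a ∈ p.2 b
  · exact Or.inl (hp.2.2 a b hb h).symm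
  · exact Or.inr h

/-- Counting a relation by rows and by columns. -/
theorem sum_card_comm (S T : V → Finset V) (h : ∀ a b, b ∈ S a ↔ a ∈ T b) :
    ∑ a, ((S a).card : ℤ) = ∑ b, ((T b).card : ℤ) := by
  have e1 : ∀ a, ((S a).card : ℤ) = ∑ b, if b ∈ S a then 1 else 0 := by
    intro a
    simp
  have e2 : ∀ b, ((T b).card : ℤ) = ∑ a, if a ∈ T b then 1 else 0 := by
    intro a
    simp
  simp only [e1, e2]
  rw [Finset.sum_comm]
  refine Finset.sum_congr rfl fun b _ => Finset.sum_congr rfl fun a _ => ?_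
  simp only [h]

/-- The main lemma at an optimal pair. -/
theorem star {N : V → Finset V} {p : (V → Finset V) × (V → Finset V)}
    (hN : ∀ a, a ∈ N a) (hp : Feas N p) (hmin : ∀ q, Feas N q → cost N p ≤ cost N q) :
    ∑ a, (cc N (UU p.2 a) - cc N (p.1 a)) ≤
      ∑ z, (cc N (ero N (UU p.2) z) - cc N (ero N p.1 z)) := by
  refine main_lemma N (cc N) (cc_submod N) p.1 (UU p.2) (sub_UU hp) ?_ ?_
  · intro a R h1 h2
    refine opt_row hp hmin a R h1 fun b hb hab => ?_
    rcases mem_UU.1 (h2 hb) with h | h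
    · exact h.symm
    · exact absurd hab h
  · intro x T hT
    have hTC : ∀ a ∈ T, a ∉ p.2 x := by
      intro a ha
      obtain ⟨h1, h2⟩ := hT a ha
      rcases mem_UU.1 h1 with h | h
      · subst h
        exact absurd (hp.1 x (hN x)) h2
      · exact h
    have h1 := opt_col hp hmin x (p.2 x ∪ T) Finset.subset_union_left (fun a ha hxa => by
      rcases Finset.mem_union.1 ha with ha | ha
      · exact hp.2.2 a x hxa ha
      · exact absurd hxa (hT a ha).2)
    have hdis : Disjoint (p.2 x) T := by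
      rw [Finset.disjoint_left]
      intro a ha ha'
      exact hTC a ha' ha
    have h2 : (p.2 x ∪ T).card = (p.2 x).card + T.card := Finset.card_union_of_disjoint hdis
    have h3 : cl N (p.2 x ∪ T) ⊆ cl N (p.2 x) ∪
        (univ.filter fun z => x ∈ ero N (UU p.2) z ∧ ∃ a ∈ T, z ∈ N a) := by
      intro z hz
      by_cases hz2 : z ∈ cl N (p.2 x)
      · exact Finset.mem_union_left _ hz2
      · refine Finset.mem_union_right _ (Finset.mem_filter.2 ⟨Finset.mem_univ _, ?_, ?_⟩)
        · rw [mem_ero]
          intro a ha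
          rw [mem_UU]
          right
          intro h4
          exact hz2 (mem_cl.2 ⟨a, h4, ha⟩)
        · obtain ⟨y, hy, hzy⟩ := mem_cl.1 hz
          rcases Finset.mem_union.1 hy with hy | hy
          · exact absurd (mem_cl.2 ⟨y, hy, hzy⟩) hz2
          · exact ⟨y, hy, hzy⟩
    have h4 := (Finset.card_le_card h3).trans (Finset.card_union_le _ _)
    unfold cc at h1
    omega

/-- The shifted family `Y_b`. -/
theorem shift {N : V → Finset V} {p : (V → Finset V) × (V → Finset V)}
    (hN : ∀ a, a ∈ N a) (hp : Feas N p) (hmin : ∀ q, Feas N q → cost N p ≤ cost N q) :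
    cost N (ero N p.1, ero N p.2) ≤ cost N p := by
  have hst := star hN hp hmin
  set U := UU p.2 with hU
  -- rows of `cl (U a)` by columns
  have c1 : ∀ b v, v ∉ ero N p.2 b ↔ (v ≠ b ∧ b ∈ cl N (U v)) := by
    intro b v
    rw [mem_ero, mem_cl]
    push Not
    constructor
    · rintro ⟨s, hs1, hs2⟩
      refine ⟨?_, s, ?_, hs1⟩
      · rintro rfl
        exact hs2 (hp.2.1 s hs1)
      · exact mem_UU.2 (Or.inr hs2)
    · rintro ⟨hvb, s, hs1, hs2⟩
      rcases mem_UU.1 hs1 with h | h
      · subst h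
        refine ⟨b, hN b, ?_⟩
        intro h3
        exact hvb (hp.2.2 s b (hp.1 s hs2) h3)
      · exact ⟨s, hs2, h⟩
  have c2 : ∀ b v, v ∉ p.2 b ↔ (v ≠ b ∧ b ∈ U v) := by
    intro b v
    rw [hU, mem_UU]
    constructor
    · intro h
      refine ⟨?_, Or.inr h⟩
      rintro rfl
      exact h (hp.2.1 v (hN v))
    · rintro ⟨h1, h2 | h2⟩
      · exact absurd h2.symm h1
      · exact h2
  have c3 : ∀ b v, v ∈ cl N (ero N p.2 b) → b ∈ cl N (ero N U v) → v = b := by
    intro b z hz hb
    obtain ⟨y, hy, hzy⟩ := mem_cl.1 hz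
    obtain ⟨x, hx, hbx⟩ := mem_cl.1 hb
    rw [mem_ero] at hy hx
    have h1 := hy x hbx
    have hxy : x = y := by
      rcases mem_UU.1 (hx y hzy) with h | h
      · exact h
      · exact absurd h1 h
    subst hxy
    have hzx : z = x := by
      rcases mem_UU.1 (hx z (hN z)) with h | h
      · exact h.symm
      · exact absurd (hp.2.1 x hzy) h
    subst hzx
    exact hp.2.2 z b (hp.1 z hbx) (hy b (hN b))
  have c4 : ∀ b v, v ∉ cl N (p.2 b) → b ∈ ero N U v := by
    intro b z hz
    rw [mem_ero]
    intro a ha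
    rw [hU, mem_UU]
    right
    intro h
    exact hz (mem_cl.2 ⟨a, h, ha⟩)
  have c4' : ∀ b v, b ∈ ero N U v → v ≠ b → v ∉ cl N (p.2 b) := by
    intro b z hb hzb hz
    obtain ⟨y, hy, hzy⟩ := mem_cl.1 hz
    rw [mem_ero] at hb
    rcases mem_UU.1 (hb y hzy) with h | h
    · subst h
      rcases mem_UU.1 (hb z (hN z)) with h | h
      · exact hzb h.symm
      · exact h (hp.2.1 b hzy)
    · exact h hy
  have c5 : ∀ b, b ∈ ero N U b := by
    intro b
    rw [mem_ero]
    intro a ha
    exact sub_UU hp a (hp.1 a ha)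
  have c6 : ∀ b, b ∈ U b := fun b => mem_UU.2 (Or.inl rfl)
  have c7 : ∀ b, b ∈ cl N (U b) := fun b => sub_cl hN _ (c6 b)
  have c8 : ∀ b, b ∈ cl N (ero N U b) := fun b => sub_cl hN _ (c5 b)
  -- columns
  have k1 : ∀ b, ((ero N p.2 b).card : ℤ) =
      Fintype.card V + 1 - ((univ.filter fun v => b ∈ cl N (U v)).card : ℤ) := by
    intro b
    have e : univ.filter (fun v => b ∈ cl N (U v)) = insert b (univ \ ero N p.2 b) := by
      ext v
      simp only [mem_filter, mem_univ, true_and, mem_insert, mem_sdiff]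
      rw [c1]
      by_cases hvb : v = b
      · subst hvb
        simp [c7]
      · simp [hvb]
    have hb : b ∉ univ \ ero N p.2 b := by
      simp only [mem_sdiff, mem_univ, true_and, not_not]
      by_contra h
      exact ((c1 b b).1 h).1 rfl
    have h1 : (univ \ ero N p.2 b).card = Fintype.card V - (ero N p.2 b).card := by
      rw [Finset.card_sdiff_of_subset (Finset.subset_univ _), Finset.card_univ]
    have h2 : (ero N p.2 b).card ≤ Fintype.card V := Finset.card_le_univ _
    rw [e, Finset.card_insert_of_notMem hb, h1]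
    omega
  have k2 : ∀ b, ((p.2 b).card : ℤ) =
      Fintype.card V + 1 - ((univ.filter fun v => b ∈ U v).card : ℤ) := by
    intro b
    have e : univ.filter (fun v => b ∈ U v) = insert b (univ \ p.2 b) := by
      ext v
      simp only [mem_filter, mem_univ, true_and, mem_insert, mem_sdiff]
      rw [c2]
      by_cases hvb : v = b
      · subst hvb
        simp [c6]
      · simp [hvb]
    have hb : b ∉ univ \ p.2 b := by
      simp only [mem_sdiff, mem_univ, true_and, not_not]
      by_contra h
      exact ((c2 b b).1 h).1 rfl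
    have h1 : (univ \ p.2 b).card = Fintype.card V - (p.2 b).card := by
      rw [Finset.card_sdiff_of_subset (Finset.subset_univ _), Finset.card_univ]
    have h2 : (p.2 b).card ≤ Fintype.card V := Finset.card_le_univ _
    rw [e, Finset.card_insert_of_notMem hb, h1]
    omega
  have k3 : ∀ b, ((cl N (ero N p.2 b)).card : ℤ) ≤
      Fintype.card V + 1 - ((univ.filter fun v => b ∈ cl N (ero N U v)).card : ℤ) := by
    intro b
    have e : univ.filter (fun v => b ∈ cl N (ero N U v)) ⊆
        insert b (univ \ cl N (ero N p.2 b)) := by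
      intro v hv
      simp only [mem_filter, mem_univ, true_and, mem_insert, mem_sdiff] at hv ⊢
      by_cases h : v ∈ cl N (ero N p.2 b)
      · exact Or.inl (c3 b v h hv)
      · exact Or.inr h
    have h1 : (univ \ cl N (ero N p.2 b)).card = Fintype.card V - (cl N (ero N p.2 b)).card := by
      rw [Finset.card_sdiff_of_subset (Finset.subset_univ _), Finset.card_univ]
    have h2 : (cl N (ero N p.2 b)).card ≤ Fintype.card V := Finset.card_le_univ _
    have h3 := (Finset.card_le_card e).trans (Finset.card_insert_le _ _)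
    omega
  have k4 : ∀ b, ((cl N (p.2 b)).card : ℤ) =
      Fintype.card V + 1 - ((univ.filter fun v => b ∈ ero N U v).card : ℤ) := by
    intro b
    have hbC : b ∈ cl N (p.2 b) := sub_cl hN _ (hp.2.1 b (hN b))
    have e : univ.filter (fun v => b ∈ ero N U v) = insert b (univ \ cl N (p.2 b)) := by
      ext v
      simp only [mem_filter, mem_univ, true_and, mem_insert, mem_sdiff]
      constructor
      · intro h
        by_cases hvb : v = b
        · exact Or.inl hvb
        · exact Or.inr (c4' b v h hvb)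
      · rintro (h | h)
        · subst h
          exact c5 v
        · exact c4 b v h
    have hb : b ∉ univ \ cl N (p.2 b) := by
      simp [hbC]
    have h1 : (univ \ cl N (p.2 b)).card = Fintype.card V - (cl N (p.2 b)).card := by
      rw [Finset.card_sdiff_of_subset (Finset.subset_univ _), Finset.card_univ]
    have h2 : (cl N (p.2 b)).card ≤ Fintype.card V := Finset.card_le_univ _
    rw [e, Finset.card_insert_of_notMem hb, h1]
    omega
  have s1 := sum_card_comm (fun v => cl N (U v)) (fun b => univ.filter fun v => b ∈ cl N (U v))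
    (fun a b => by simp)
  have s2 := sum_card_comm U (fun b => univ.filter fun v => b ∈ U v) (fun a b => by simp)
  have s3 := sum_card_comm (fun v => cl N (ero N U v))
    (fun b => univ.filter fun v => b ∈ cl N (ero N U v)) (fun a b => by simp)
  have s4 := sum_card_comm (fun v => ero N U v)
    (fun b => univ.filter fun v => b ∈ ero N U v) (fun a b => by simp)
  have t1 : ∑ b, ((ero N p.2 b).card : ℤ) =
      ∑ _b : V, ((Fintype.card V : ℤ) + 1) - ∑ a, ((cl N (U a)).card : ℤ) := by
    rw [s1, ← Finset.sum_sub_distrib]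
    exact Finset.sum_congr rfl fun b _ => k1 b
  have t2 : ∑ b, ((p.2 b).card : ℤ) =
      ∑ _b : V, ((Fintype.card V : ℤ) + 1) - ∑ a, ((U a).card : ℤ) := by
    rw [s2, ← Finset.sum_sub_distrib]
    exact Finset.sum_congr rfl fun b _ => k2 b
  have t3 : ∑ b, ((cl N (ero N p.2 b)).card : ℤ) ≤
      ∑ _b : V, ((Fintype.card V : ℤ) + 1) - ∑ a, ((cl N (ero N U a)).card : ℤ) := by
    rw [s3, ← Finset.sum_sub_distrib]
    exact Finset.sum_le_sum fun b _ => k3 b
  have t4 : ∑ b, ((cl N (p.2 b)).card : ℤ) =
      ∑ _b : V, ((Fintype.card V : ℤ) + 1) - ∑ a, ((ero N U a).card : ℤ) := by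
    rw [s4, ← Finset.sum_sub_distrib]
    exact Finset.sum_congr rfl fun b _ => k4 b
  unfold cost
  simp only [Finset.sum_sub_distrib] at hst
  unfold cc at hst ⊢
  simp only [Finset.sum_sub_distrib] at hst ⊢
  linarith

/-- The dilated shifted pair is feasible again. -/
theorem feas_shift {N : V → Finset V} {p : (V → Finset V) × (V → Finset V)}
    (hN : ∀ a, a ∈ N a) (hp : Feas N p) :
    Feas N (fun a => cl N (ero N p.1 a), fun b => cl N (ero N p.2 b)) := by
  refine ⟨fun a x hx => mem_cl.2 ⟨a, mem_ero.2 fun s hs => hp.1 s hs, hx⟩,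
    fun a x hx => mem_cl.2 ⟨a, mem_ero.2 fun s hs => hp.2.1 s hs, hx⟩, ?_⟩
  intro a b hb ha
  obtain ⟨x, hx, hbx⟩ := mem_cl.1 hb
  obtain ⟨y, hy, hay⟩ := mem_cl.1 ha
  rw [mem_ero] at hx hy
  have hxy : y = x := hp.2.2 y x (hx y hay) (hy x hbx)
  subst hxy
  have h1 : a = y := hp.2.2 a y (hx a (hN a)) (hp.2.1 y hay)
  have h2 : y = b := hp.2.2 y b (hp.1 y hbx) (hy b (hN b))
  exact h1.trans h2

/-- Key theorem: for every reflexive antisymmetric `N` there is a set `S` with `S ≠ N[S]` and
`c(S) ≤ c(N[S])`, unless all closed sets obstruct (no cycle). -/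
theorem key {N : V → Finset V} (hN : ∀ a, a ∈ N a) (hanti : ∀ a b, b ∈ N a → a ∈ N b → a = b)
    (hG : ∀ S : Finset V, cl N S ≠ S → cc N (cl N S) < cc N S)
    (hcyc : ∃ a : V, ∀ S : Finset V, a ∈ S → cl N S = S → ∃ x ∈ S, x ≠ a ∧ a ∈ N x) : False := by
  obtain ⟨p, hp, hmin⟩ := exists_opt N hanti
  have h1 := shift hN hp hmin
  have h2 := feas_shift hN hp
  have h3 := hmin _ h2
  have hle : ∀ S : Finset V, cc N (cl N S) ≤ cc N S := by
    intro S
    by_cases h : cl N S = S
    · rw [h]
    · exact (hG S h).le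
  obtain ⟨a, ha⟩ := hcyc
  have haS : a ∈ ero N p.1 a := mem_ero.2 fun s hs => hp.1 s hs
  have hne : cl N (ero N p.1 a) ≠ ero N p.1 a := by
    intro h
    obtain ⟨x, hx, hxa, hax⟩ := ha _ haS h
    have h4 := mem_ero.1 hx a (hN a)
    exact hxa (hp.2.2 a x h4 (hp.2.1 x hax)).symm
  have h4 : ∑ a, cc N (cl N (ero N p.1 a)) < ∑ a, cc N (ero N p.1 a) :=
    Finset.sum_lt_sum (fun b _ => hle _) ⟨a, Finset.mem_univ _, hG _ hne⟩
  have h5 : ∑ a, cc N (cl N (ero N p.2 a)) ≤ ∑ a, cc N (ero N p.2 a) :=
    Finset.sum_le_sum (fun b _ => hle _)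
  unfold cost at h1 h3
  simp only at h1 h3
  linarith

end Vale.Agent.P038.H588
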