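import Vale.Agent.P038.H71.Plan
import Vale.Agent.P038.H588.Shift

/-!
# P038 (H588): Seymour's second neighbourhood conjecture
-/

namespace Vale.Agent.P038.H588

open Finset

universe u

variable {V : Type u} [Fintype V]

/-- A counterexample. -/
def CE (D : OGraph V) : Prop := ∀ v, (N2 D v).card < (N1 D v).card

theorem fw_one (D : OGraph V) (v : V) :
    H139.Fw 1 D (fun _ => 1) v = ((N1 D v).card : ℝ) - (N2 D v).card := by
  unfold H139.Fw H139.W
  simp

theorem ce_iff (D : OGraph V) : CE D ↔ ∀ v, 1 ≤ H139.Fw 1 D (fun _ => 1) v := by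
  constructor
  · intro h v
    rw [fw_one]
    have h1 : (N2 D v).card + 1 ≤ (N1 D v).card := h v
    have h2 : ((N2 D v).card : ℝ) + 1 ≤ (N1 D v).card := by exact_mod_cast h1
    linarith
  · intro h v
    have h1 := h v
    rw [fw_one] at h1
    have h2 : ((N2 D v).card : ℝ) + 1 ≤ (N1 D v).card := by linarith
    have h3 : (N2 D v).card + 1 ≤ (N1 D v).card := by exact_mod_cast h2
    exact h3

/-- 294's inequality (G), unweighted, for a counterexample with the fewest arcs. -/
theorem gineq [DecidableEq V] {D : OGraph V} (hD : CE D)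
    (hmin : ∀ D' : OGraph V, CE D' → H139.numArcs D ≤ H139.numArcs D')
    (X : Finset V) (hX : (H71.Lx D X).Nonempty) :
    (H139.cl D (H71.Lx D X) \ X).card < 2 * (H71.Lx D X).card := by
  set L := H71.Lx D X with hL
  set d := H71.dd 1 D (fun _ => 1) X with hd
  have h1 := (ce_iff D).1 hD
  have hdel : ∀ T, T ⊆ L → (∀ S ⊆ L, d T ≤ d S) → T = L := by
    intro T hT hTmin
    by_contra hne
    have h2 : CE (H139.del D X (L \ T)) := by
      rw [ce_iff]
      exact H71.del_rows (fun _ => zero_le_one) h1 X T hT (fun S _ hS => hTmin S hS)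
    have h3 := hmin _ h2
    obtain ⟨z, hzL, hzT⟩ := Finset.exists_of_ssubset (Finset.ssubset_iff_subset_ne.2 ⟨hT, hne⟩)
    have hzL' : z ∈ H139.outS D X \ X := hzL
    obtain ⟨y, hy, hyz⟩ := H139.mem_outS.1 (Finset.mem_sdiff.1 hzL').1
    have h4 := H71.numArcs_lt_del (D := D) (Z := L \ T) hy (Finset.mem_sdiff.2 ⟨hzL, hzT⟩) hyz
    omega
  obtain ⟨T0, hT0, hT0min⟩ := Finset.exists_min_image L.powerset d ⟨∅, Finset.empty_mem_powerset _⟩
  have hm : ∀ S ⊆ L, d T0 ≤ d S := fun S hS => hT0min S (Finset.mem_powerset.2 hS)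
  have hT0L : T0 = L := hdel T0 (Finset.mem_powerset.1 hT0) hm
  have hd0 : d ∅ = 0 := by
    have : H139.cl D (∅ : Finset V) = ∅ := by
      rw [Finset.eq_empty_iff_forall_notMem]
      intro z hz
      rw [H139.mem_cl] at hz
      simp at hz
    simp [hd, H71.dd, this, H139.W]
  have hlt : d L < 0 := by
    rcases lt_or_ge (d L) 0 with h2 | h2
    · exact h2
    · exfalso
      have h3 := hdel ∅ (Finset.empty_subset _) (fun S hS => by
        rw [hd0]
        have := hm S hS
        rw [hT0L] at this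
        linarith)
      rw [← h3] at hX
      exact Finset.not_nonempty_empty hX
  have h2 : d L = ((H139.cl D L \ X).card : ℝ) - (1 + 1) * L.card := by
    simp [hd, H71.dd, H139.W]
  rw [h2] at hlt
  have h3 : ((H139.cl D L \ X).card : ℝ) < 2 * L.card := by linarith
  exact_mod_cast h3

/-- Closed out-neighbourhoods. -/
noncomputable def NN [DecidableEq V] (D : OGraph V) (a : V) : Finset V := insert a (N1 D a)

theorem mem_NN [DecidableEq V] {D : OGraph V} {a b : V} : b ∈ NN D a ↔ b = a ∨ D.arc a b := by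
  simp [NN, mem_N1]

theorem cl_NN [DecidableEq V] (D : OGraph V) (S : Finset V) : cl (NN D) S = H139.cl D S := by
  ext z
  rw [mem_cl, H139.mem_cl]
  constructor
  · rintro ⟨y, hy, hz⟩
    rcases mem_NN.1 hz with h | h
    · subst h
      exact Or.inl hy
    · exact Or.inr ⟨y, hy, h⟩
  · rintro (h | ⟨y, hy, h⟩)
    · exact ⟨z, h, mem_NN.2 (Or.inl rfl)⟩
    · exact ⟨y, hy, mem_NN.2 (Or.inr h)⟩

theorem hG_of [DecidableEq V] {D : OGraph V} (hD : CE D)
    (hmin : ∀ D' : OGraph V, CE D' → H139.numArcs D ≤ H139.numArcs D') (S : Finset V)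
    (hS : cl (NN D) S ≠ S) : cc (NN D) (cl (NN D) S) < cc (NN D) S := by
  set L := H71.Lx D S with hL
  have mL : ∀ z, z ∈ L ↔ (∃ y ∈ S, D.arc y z) ∧ z ∉ S := by
    intro z
    rw [hL]
    unfold H71.Lx
    rw [Finset.mem_sdiff, H139.mem_outS]
  have e1 : cl (NN D) S = S ∪ L := by
    rw [cl_NN]
    ext z
    rw [H139.mem_cl, Finset.mem_union, mL]
    by_cases hz : z ∈ S <;> simp [hz]
  have hdis : Disjoint S L := by
    rw [Finset.disjoint_left]
    intro z hz hz'
    exact ((mL z).1 hz').2 hz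
  have hLne : L.Nonempty := by
    rw [Finset.nonempty_iff_ne_empty]
    intro h
    rw [e1, h, Finset.union_empty] at hS
    exact hS rfl
  have h1 : (H139.cl D L \ S).card < 2 * L.card := gineq hD hmin S hLne
  have e2 : cl (NN D) (S ∪ L) = S ∪ (H139.cl D L \ S) := by
    rw [cl_NN]
    ext z
    rw [H139.mem_cl, Finset.mem_union, Finset.mem_union, Finset.mem_sdiff, H139.mem_cl]
    constructor
    · rintro ((h | h) | ⟨y, hy, hyz⟩)
      · exact Or.inl h
      · exact Or.inr ⟨Or.inl h, fun h' => ((mL z).1 h).2 h'⟩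
      · by_cases hz : z ∈ S
        · exact Or.inl hz
        · rcases Finset.mem_union.1 hy with hy | hy
          · exact Or.inr ⟨Or.inl ((mL z).2 ⟨⟨y, hy, hyz⟩, hz⟩), hz⟩
          · exact Or.inr ⟨Or.inr ⟨y, hy, hyz⟩, hz⟩
    · rintro (h | ⟨h | ⟨y, hy, hyz⟩, _⟩)
      · exact Or.inl (Or.inl h)
      · exact Or.inl (Or.inr h)
      · exact Or.inr ⟨y, Finset.mem_union_right _ hy, hyz⟩
  have e3 : (S ∪ (H139.cl D L \ S)).card = S.card + (H139.cl D L \ S).card :=
    Finset.card_union_of_disjoint Finset.disjoint_sdiff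
  have e4 : (S ∪ L).card = S.card + L.card := Finset.card_union_of_disjoint hdis
  unfold cc
  rw [e1, e2, e3, e4]
  push_cast
  omega

theorem hcyc_of [DecidableEq V] [Nonempty V] {N : V → Finset V}
    (hN : ∀ a, a ∈ N a) (hout : ∀ a, ∃ b ∈ N a, b ≠ a) :
    ∃ a : V, ∀ S : Finset V, a ∈ S → cl N S = S → ∃ x ∈ S, x ≠ a ∧ a ∈ N x := by
  classical
  have hne : (univ.filter fun S : Finset V => S.Nonempty ∧ cl N S = S).Nonempty := by
    refine ⟨univ, Finset.mem_filter.2 ⟨Finset.mem_univ _, Finset.univ_nonempty, ?_⟩⟩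
    exact Finset.Subset.antisymm (Finset.subset_univ _) (sub_cl hN _)
  obtain ⟨S0, hS0, hS0min⟩ := Finset.exists_min_image _ Finset.card hne
  obtain ⟨-, ⟨a, haS⟩, hS0c⟩ := Finset.mem_filter.1 hS0
  refine ⟨a, fun S haS' hSc => ?_⟩
  by_contra hcon
  push Not at hcon
  have hc : ∀ {S : Finset V}, cl N S = S → ∀ x ∈ S, ∀ z ∈ N x, z ∈ S := by
    intro S hS x hx z hz
    rw [← hS]
    exact mem_cl.2 ⟨x, hx, hz⟩
  -- the intersection without `a` is closed
  have h1 : cl N ((S ∩ S0).erase a) = (S ∩ S0).erase a := by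
    refine Finset.Subset.antisymm ?_ (sub_cl hN _)
    intro z hz
    obtain ⟨x, hx, hzx⟩ := mem_cl.1 hz
    obtain ⟨hxa, hx2⟩ := Finset.mem_erase.1 hx
    obtain ⟨hx3, hx4⟩ := Finset.mem_inter.1 hx2
    refine Finset.mem_erase.2 ⟨?_, Finset.mem_inter.2 ⟨hc hSc x hx3 z hzx, hc hS0c x hx4 z hzx⟩⟩
    rintro rfl
    exact hcon x hx3 hxa hzx
  obtain ⟨b, hb, hba⟩ := hout a
  have h2 : ((S ∩ S0).erase a).Nonempty :=
    ⟨b, Finset.mem_erase.2 ⟨hba, Finset.mem_inter.2 ⟨hc hSc a haS' b hb, hc hS0c a haS b hb⟩⟩⟩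
  have h3 := hS0min _ (Finset.mem_filter.2 ⟨Finset.mem_univ _, h2, h1⟩)
  have h4 : ((S ∩ S0).erase a).card < S0.card := by
    refine Finset.card_lt_card (Finset.ssubset_iff_subset_ne.2 ⟨?_, ?_⟩)
    · exact (Finset.erase_subset _ _).trans Finset.inter_subset_right
    · intro h
      rw [← h] at haS
      exact Finset.notMem_erase _ _ haS
  omega

/-- Seymour's second neighbourhood conjecture. -/
theorem seymour [Nonempty V] (D : OGraph V) : ∃ v, (N1 D v).card ≤ (N2 D v).card := by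
  classical
  by_contra hcon
  push Not at hcon
  obtain ⟨D0, hD0, hmin⟩ := Set.exists_min_image {D : OGraph V | CE D} H139.numArcs
    (Set.toFinite _) ⟨D, hcon⟩
  refine key (N := NN D0) (fun a => mem_NN.2 (Or.inl rfl)) ?_
    (hG_of hD0 (fun D' h => hmin D' h)) (hcyc_of (fun a => mem_NN.2 (Or.inl rfl)) ?_)
  · intro a b hb ha
    rcases mem_NN.1 hb with h | h
    · exact h.symm
    · rcases mem_NN.1 ha with h' | h'
      · exact h'
      · exact absurd h' (D0.asymm _ _ h)
  · intro a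
    have h1 : (N1 D0 a).Nonempty := by
      rw [← Finset.card_pos]
      have := hD0 a
      omega
    obtain ⟨b, hb⟩ := h1
    refine ⟨b, mem_NN.2 (Or.inr (mem_N1.1 hb)), ?_⟩
    rintro rfl
    exact D0.loopless _ (mem_N1.1 hb)

end Vale.Agent.P038.H588

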