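import Mathlib

/-!
# P038 (H588): the monotone increment lemma and the shift inequality
-/

namespace Vale.Agent.P038.H588

open Finset

variable {V : Type*} [Fintype V] [DecidableEq V]

/-- Closed out-neighbourhood of a set. -/
def cl (N : V → Finset V) (S : Finset V) : Finset V := S.biUnion N

/-- `c(S) = |N[S]| - |S|`. -/
def cc (N : V → Finset V) (S : Finset V) : ℤ := ((cl N S).card : ℤ) - S.card

omit [Fintype V] in
theorem mem_cl {N : V → Finset V} {S : Finset V} {z : V} : z ∈ cl N S ↔ ∃ y ∈ S, z ∈ N y := by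
  simp [cl]

omit [Fintype V] in
theorem cc_submod (N : V → Finset V) (S T : Finset V) :
    cc N (S ∪ T) + cc N (S ∩ T) ≤ cc N S + cc N T := by
  have h1 : cl N (S ∪ T) = cl N S ∪ cl N T := by
    ext z
    simp only [mem_cl, mem_union]
    constructor
    · rintro ⟨y, hy | hy, hz⟩
      · exact Or.inl ⟨y, hy, hz⟩
      · exact Or.inr ⟨y, hy, hz⟩
    · rintro (⟨y, hy, hz⟩ | ⟨y, hy, hz⟩)
      · exact ⟨y, Or.inl hy, hz⟩
      · exact ⟨y, Or.inr hy, hz⟩
  have h2 : cl N (S ∩ T) ⊆ cl N S ∩ cl N T := by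
    intro z hz
    simp only [mem_cl, mem_inter] at hz ⊢
    obtain ⟨y, ⟨hy1, hy2⟩, hz⟩ := hz
    exact ⟨⟨y, hy1, hz⟩, ⟨y, hy2, hz⟩⟩
  have h3 := Finset.card_le_card h2
  have h4 := Finset.card_union_add_card_inter (cl N S) (cl N T)
  have h5 := Finset.card_union_add_card_inter S T
  unfold cc
  rw [h1]
  omega

/-- Minimum of `c` over the interval `[lo, hi]`. -/
noncomputable def FF (c : Finset V → ℤ) (lo hi : Finset V) : ℤ :=
  if h : (Finset.Icc lo hi).Nonempty then (Finset.Icc lo hi).inf' h c else 0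

theorem FF_le {c : Finset V → ℤ} {lo hi R : Finset V} (h1 : lo ⊆ R) (h2 : R ⊆ hi) :
    FF c lo hi ≤ c R := by
  have hR : R ∈ Finset.Icc lo hi := Finset.mem_Icc.2 ⟨h1, h2⟩
  have h : (Finset.Icc lo hi).Nonempty := ⟨R, hR⟩
  rw [FF, dif_pos h]
  exact Finset.inf'_le c hR

theorem exists_FF (c : Finset V → ℤ) {lo hi : Finset V} (h : lo ⊆ hi) :
    ∃ R, lo ⊆ R ∧ R ⊆ hi ∧ c R = FF c lo hi := by
  have hn : (Finset.Icc lo hi).Nonempty := ⟨lo, Finset.mem_Icc.2 ⟨le_rfl, h⟩⟩
  obtain ⟨R, hR, hR2⟩ := Finset.exists_mem_eq_inf' hn c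
  rw [FF, dif_pos hn]
  exact ⟨R, (mem_Icc.1 hR).1, (mem_Icc.1 hR).2, hR2.symm⟩

theorem sum_ind {M x : ℤ} (h0 : 0 ≤ x) (h1 : x ≤ M) :
    ∑ s ∈ Finset.Icc (1 : ℤ) M, (if s ≤ x then (1 : ℤ) else 0) = x := by
  rw [Finset.sum_boole]
  have : (Finset.Icc (1 : ℤ) M).filter (fun s => s ≤ x) = Finset.Icc 1 x := by
    ext s
    simp only [mem_filter, Finset.mem_Icc]
    constructor
    · rintro ⟨⟨h2, _⟩, h3⟩
      exact ⟨h2, h3⟩
    · rintro ⟨h2, h3⟩
      exact ⟨⟨h2, h3.trans h1⟩, h3⟩
  rw [this, Int.card_Icc]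
  simp [h0]

omit [DecidableEq V] in
/-- Layer cake comparison. -/
theorem layer {f g : V → ℤ} (hf : ∀ a, 0 ≤ f a) (hg : ∀ a, 0 ≤ g a)
    (h : ∀ s : ℤ, 1 ≤ s →
      (univ.filter fun a => s ≤ f a).card ≤ (univ.filter fun a => s ≤ g a).card) :
    ∑ a, f a ≤ ∑ a, g a := by
  set M : ℤ := ∑ a, (f a + g a) with hM
  have hfM : ∀ a, f a ≤ M := by
    intro a
    have h1 := Finset.single_le_sum (f := fun a => f a + g a)
      (fun b _ => add_nonneg (hf b) (hg b)) (Finset.mem_univ a)
    have h2 := hg a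
    linarith
  have hgM : ∀ a, g a ≤ M := by
    intro a
    have h1 := Finset.single_le_sum (f := fun a => f a + g a)
      (fun b _ => add_nonneg (hf b) (hg b)) (Finset.mem_univ a)
    have h2 := hf a
    linarith
  have e1 : ∑ a, f a = ∑ s ∈ Finset.Icc (1 : ℤ) M, ∑ a, (if s ≤ f a then (1 : ℤ) else 0) := by
    rw [Finset.sum_comm]
    exact Finset.sum_congr rfl fun a _ => (sum_ind (hf a) (hfM a)).symm
  have e2 : ∑ a, g a = ∑ s ∈ Finset.Icc (1 : ℤ) M, ∑ a, (if s ≤ g a then (1 : ℤ) else 0) := by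
    rw [Finset.sum_comm]
    exact Finset.sum_congr rfl fun a _ => (sum_ind (hg a) (hgM a)).symm
  rw [e1, e2]
  refine Finset.sum_le_sum fun s hs => ?_
  rw [Finset.sum_boole, Finset.sum_boole]
  exact_mod_cast h s (Finset.mem_Icc.1 hs).1

/-- Erosion in the index. -/
def ero (N : V → Finset V) (L : V → Finset V) (z : V) : Finset V :=
  univ.filter fun x => ∀ a, z ∈ N a → x ∈ L a

theorem mem_ero {N L : V → Finset V} {z x : V} :
    x ∈ ero N L z ↔ ∀ a, z ∈ N a → x ∈ L a := by
  simp [ero]

theorem ero_sub {N L : V → Finset V} {a z : V} (h : z ∈ N a) : ero N L z ⊆ L a :=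
  fun _ hx => mem_ero.1 hx a h

theorem main_lemma (N : V → Finset V) (c : Finset V → ℤ)
    (hc : ∀ S T, c (S ∪ T) + c (S ∩ T) ≤ c S + c T)
    (L U : V → Finset V) (hLU : ∀ a, L a ⊆ U a)
    (hr : ∀ a R, L a ⊆ R → R ⊆ U a → c (L a) ≤ c R)
    (hk : ∀ x (T : Finset V), (∀ a ∈ T, x ∈ U a ∧ x ∉ L a) →
      T.card ≤ (univ.filter fun z => x ∈ ero N U z ∧ ∃ a ∈ T, z ∈ N a).card) :
    ∑ a, (c (U a) - c (L a)) ≤ ∑ z, (c (ero N U z) - c (ero N L z)) := by
  have hLU' : ∀ z, ero N L z ⊆ ero N U z := by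
    intro z x hx
    rw [mem_ero] at hx ⊢
    exact fun a ha => hLU a (hx a ha)
  set G : V → Finset V → ℤ := fun a W => FF c (L a ∪ (W ∩ U a)) (U a) with hG
  set G' : V → Finset V → ℤ := fun z W => FF c (ero N L z ∪ (W ∩ ero N U z)) (ero N U z) with hG'
  have hsub : ∀ a W, L a ∪ (W ∩ U a) ⊆ U a := fun a W =>
    Finset.union_subset (hLU a) Finset.inter_subset_right
  have hsub' : ∀ z W, ero N L z ∪ (W ∩ ero N U z) ⊆ ero N U z := fun z W =>
    Finset.union_subset (hLU' z) Finset.inter_subset_right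
  have mono : ∀ a W x, G a W ≤ G a (insert x W) := by
    intro a W x
    obtain ⟨R, h1, h2, h3⟩ := exists_FF c (hsub a (insert x W))
    show FF c _ _ ≤ FF c _ _
    rw [← h3]
    refine FF_le (Finset.Subset.trans ?_ h1) h2
    exact Finset.union_subset_union (Finset.Subset.refl _)
      (Finset.inter_subset_inter (Finset.subset_insert _ _) (Finset.Subset.refl _))
  have mono' : ∀ a W x, G' a W ≤ G' a (insert x W) := by
    intro a W x
    obtain ⟨R, h1, h2, h3⟩ := exists_FF c (hsub' a (insert x W))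
    show FF c _ _ ≤ FF c _ _
    rw [← h3]
    refine FF_le (Finset.Subset.trans ?_ h1) h2
    exact Finset.union_subset_union (Finset.Subset.refl _)
      (Finset.inter_subset_inter (Finset.subset_insert _ _) (Finset.Subset.refl _))
  have zero : ∀ a W x, ¬ (x ∈ U a ∧ x ∉ L a) → G a (insert x W) = G a W := by
    intro a W x hx
    have : L a ∪ (insert x W ∩ U a) = L a ∪ (W ∩ U a) := by
      ext y
      simp only [mem_union, mem_inter, mem_insert]
      constructor
      · rintro (h | ⟨rfl | h, h'⟩)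
        · exact Or.inl h
        · by_cases hy : y ∈ L a
          · exact Or.inl hy
          · exact absurd ⟨h', hy⟩ hx
        · exact Or.inr ⟨h, h'⟩
      · rintro (h | ⟨h, h'⟩)
        · exact Or.inl h
        · exact Or.inr ⟨Or.inr h, h'⟩
    show FF c _ _ = FF c _ _
    rw [this]
  have key : ∀ a z W x, z ∈ N a → x ∈ ero N U z →
      G a (insert x W) - G a W ≤ G' z (insert x W) - G' z W := by
    intro a z W x haz hx
    obtain ⟨R, h1, h2, h3⟩ := exists_FF c (hsub' z (insert x W))
    obtain ⟨R', h1', h2', h3'⟩ := exists_FF c (hsub a W)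
    have h4 : G a (insert x W) ≤ c (R ∪ R') := by
      refine FF_le ?_ (Finset.union_subset (h2.trans (ero_sub haz)) h2')
      intro y hy
      simp only [mem_union, mem_inter, mem_insert] at hy ⊢
      rcases hy with hy | ⟨rfl | hy, hy'⟩
      · exact Or.inr (h1' (Finset.mem_union_left _ hy))
      · left
        exact h1 (Finset.mem_union_right _ (Finset.mem_inter.2 ⟨Finset.mem_insert_self _ _, hx⟩))
      · exact Or.inr (h1' (Finset.mem_union_right _ (Finset.mem_inter.2 ⟨hy, hy'⟩)))
    have h5 : G' z W ≤ c (R ∩ R') := by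
      refine FF_le ?_ (Finset.inter_subset_left.trans h2)
      intro y hy
      rcases Finset.mem_union.1 hy with hy | hy
      · refine Finset.mem_inter.2 ⟨h1 (Finset.mem_union_left _ hy),
          h1' (Finset.mem_union_left _ (ero_sub haz hy))⟩
      · obtain ⟨hy1, hy2⟩ := Finset.mem_inter.1 hy
        refine Finset.mem_inter.2 ⟨h1 (Finset.mem_union_right _ (Finset.mem_inter.2
          ⟨Finset.mem_insert_of_mem hy1, hy2⟩)), h1' (Finset.mem_union_right _
          (Finset.mem_inter.2 ⟨hy1, ero_sub haz hy2⟩))⟩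
    have h6 := hc R R'
    have h7 : c R = G' z (insert x W) := h3
    have h8 : c R' = G a W := h3'
    linarith
  have step : ∀ W x, ∑ a, (G a (insert x W) - G a W) ≤ ∑ z, (G' z (insert x W) - G' z W) := by
    intro W x
    refine layer (fun a => sub_nonneg.2 (mono a W x)) (fun a => sub_nonneg.2 (mono' a W x)) ?_
    intro s hs
    refine (hk x (univ.filter fun a => s ≤ G a (insert x W) - G a W) ?_).trans
      (Finset.card_le_card ?_)
    · intro a ha
      by_contra hcon
      have h1 := zero a W x hcon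
      have h2 := (Finset.mem_filter.1 ha).2
      rw [h1] at h2
      linarith
    · intro z hz
      obtain ⟨-, hz1, a, ha, hza⟩ := Finset.mem_filter.1 hz
      refine Finset.mem_filter.2 ⟨Finset.mem_univ _, ?_⟩
      exact ((Finset.mem_filter.1 ha).2).trans (key a z W x hza hz1)
  have ind : ∀ W : Finset V, ∑ a, (G a W - G a ∅) ≤ ∑ z, (G' z W - G' z ∅) := by
    intro W
    induction W using Finset.induction_on with
    | empty => simp
    | insert x W _ ih =>
      have h1 := step W x
      simp only [Finset.sum_sub_distrib] at h1 ih ⊢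
      linarith
  have h := ind univ
  have e1 : ∀ a, G a univ = c (U a) := by
    intro a
    obtain ⟨R, h1, h2, h3⟩ := exists_FF c (hsub a univ)
    have : R = U a := by
      refine Finset.Subset.antisymm h2 (Finset.Subset.trans ?_ h1)
      intro y hy
      exact Finset.mem_union_right _ (Finset.mem_inter.2 ⟨Finset.mem_univ _, hy⟩)
    rw [← this]
    exact h3.symm
  have e2 : ∀ z, G' z univ = c (ero N U z) := by
    intro z
    obtain ⟨R, h1, h2, h3⟩ := exists_FF c (hsub' z univ)
    have : R = ero N U z := by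
      refine Finset.Subset.antisymm h2 (Finset.Subset.trans ?_ h1)
      intro y hy
      exact Finset.mem_union_right _ (Finset.mem_inter.2 ⟨Finset.mem_univ _, hy⟩)
    rw [← this]
    exact h3.symm
  have e3 : ∀ a, c (L a) ≤ G a ∅ := by
    intro a
    obtain ⟨R, h1, h2, h3⟩ := exists_FF c (hsub a ∅)
    show _ ≤ FF c _ _
    rw [← h3]
    exact hr a R (Finset.subset_union_left.trans h1) h2
  have e3' : ∀ a, G a ∅ ≤ c (L a) := by
    intro a
    refine FF_le ?_ (hLU a)
    simp
  have e4 : ∀ z, c (ero N L z) ≤ G' z ∅ := by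
    intro z
    obtain ⟨R, h1, h2, h3⟩ := exists_FF c (hsub' z ∅)
    show _ ≤ FF c _ _
    rw [← h3]
    have h4 : ∀ A : Finset V, (∀ a ∈ A, z ∈ N a) →
        c (R.filter fun x => ∀ a ∈ A, x ∈ L a) ≤ c R := by
      intro A
      induction A using Finset.induction_on with
      | empty => intro _; simp
      | insert a A _ ih =>
        intro hA
        have ih' := ih fun b hb => hA b (Finset.mem_insert_of_mem hb)
        set Q := R.filter fun x => ∀ a ∈ A, x ∈ L a with hQ
        have h5 : (R.filter fun x => ∀ b ∈ insert a A, x ∈ L b) = Q ∩ L a := by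
          ext x
          simp only [hQ, mem_filter, mem_inter, Finset.forall_mem_insert]
          tauto
        rw [h5]
        have h6 := hc Q (L a)
        have h7 := hr a (Q ∪ L a) Finset.subset_union_right (Finset.union_subset
          ((Finset.filter_subset _ _).trans (h2.trans (ero_sub (hA a (Finset.mem_insert_self _ _)))))
          (hLU a))
        linarith
    have h5 := h4 (univ.filter fun a => z ∈ N a) (fun a ha => (Finset.mem_filter.1 ha).2)
    have h6 : (R.filter fun x => ∀ a ∈ univ.filter (fun a => z ∈ N a), x ∈ L a) = ero N L z := by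
      ext x
      simp only [mem_filter, mem_univ, true_and, mem_ero]
      constructor
      · exact fun h => h.2
      · intro h
        exact ⟨h1 (Finset.mem_union_left _ (mem_ero.2 h)), h⟩
    rw [h6] at h5
    exact h5
  have e5 : ∀ z, G' z ∅ ≤ c (ero N L z) := by
    intro z
    refine FF_le ?_ (hLU' z)
    simp
  have e6 : ∀ a, G a ∅ = c (L a) := fun a => le_antisymm (e3' a) (e3 a)
  have e7 : ∀ z, G' z ∅ = c (ero N L z) := fun z => le_antisymm (e5 z) (e4 z)
  simp only [e1, e2, e6, e7] at h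
  exact h

end Vale.Agent.P038.H588
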